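import Vale.Agent.P078.G.Defs

/-!
Spectral cuts.
-/

open Finset Filter
open scoped Classical InnerProductSpace

namespace Vale.Agent.P078.G

variable {H : Type*} [NormedAddCommGroup H] [InnerProductSpace ℂ H] [CompleteSpace H]
  {M : VonNeumannAlgebra H} {A : StarSubalgebra ℂ (H →L[ℂ] H)} {Ω : H}
  {E : (H →L[ℂ] H) → H →L[ℂ] H}

open Vale.Agent.P070h8 in
theorem spl {x : H →L[ℂ] H} (hx : x ∈ M) (hs : IsSelfAdjoint x) {c : ℝ} (hc : 0 ≤ c) :
    ∃ q ∈ M, IsStarProjection q ∧ (∀ T, Commute T x → Commute T q) ∧ ‖x * q‖ ≤ c ∧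
      ∀ (n : ℕ) (ξ : H), c ^ n * ‖(1 - q) ξ‖ ≤ ‖(x ^ n) ξ‖ := by
  have sb : IsSelfAdjoint (x * x - ((c ^ 2 : ℝ) : ℂ) • (1 : H →L[ℂ] H)) := by
    simp [IsSelfAdjoint, hs.star_eq]
  obtain ⟨g, g1, g2, g3, g4⟩ := cut sb
  have cm : ∀ T, Commute T x → Commute T (x * x - ((c ^ 2 : ℝ) : ℂ) • (1 : H →L[ℂ] H)) :=
    fun T h => (h.mul_right h).sub_right ((Commute.one_right T).smul_right _)
  have gM : g ∈ M := mem_of_comm fun T hT => g2 T
    (cm T (VonNeumannAlgebra.mem_commutant_iff.1 hT x hx).symm)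
    (cm _ (VonNeumannAlgebra.mem_commutant_iff.1 (star_mem hT) x hx).symm)
  have xg : Commute x g := g2 x (cm x rfl) (by rw [hs.star_eq]; exact cm x rfl)
  have key : ∀ p : H →L[ℂ] H, IsStarProjection p → ∀ ξ,
      (⟪ξ, (p * (x * x - ((c ^ 2 : ℝ) : ℂ) • (1 : H →L[ℂ] H)) * p) ξ⟫_ℂ).re =
        ‖x (p ξ)‖ ^ 2 - c ^ 2 * ‖p ξ‖ ^ 2 := fun p hp ξ => by
    have e1 : ⟪ξ, (p * (x * x - ((c ^ 2 : ℝ) : ℂ) • (1 : H →L[ℂ] H)) * p) ξ⟫_ℂ =
        ⟪p ξ, (x * x - ((c ^ 2 : ℝ) : ℂ) • (1 : H →L[ℂ] H)) (p ξ)⟫_ℂ := by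
      rw [← inner_star_right, hp.isSelfAdjoint.star_eq]
      rfl
    have e2 := re_inner_star_mul x (p ξ)
    rw [hs.star_eq] at e2
    rw [e1, ContinuousLinearMap.sub_apply, inner_sub_right, Complex.sub_re, e2,
      ContinuousLinearMap.smul_apply, ContinuousLinearMap.one_apply, inner_smul_right,
      Complex.re_ofReal_mul, inner_self_eq_norm_sq_to_K]
    norm_cast
  have pn : ∀ p : H →L[ℂ] H, IsStarProjection p → ∀ ξ, ‖p ξ‖ ≤ ‖ξ‖ := fun p hp ξ =>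
    (p.le_opNorm ξ).trans (mul_le_of_le_one_left (norm_nonneg _) hp.norm_le)
  refine ⟨g, gM, g1, fun T h => g2 T (cm T h) (cm _ (by simpa [hs.star_eq] using h.star_star)),
    ContinuousLinearMap.opNorm_le_bound _ hc fun ξ => ?_, fun n ξ => ?_⟩
  · have k1 := re_inner_nonneg (neg_nonneg.2 g3) ξ
    rw [ContinuousLinearMap.neg_apply, inner_neg_right, Complex.neg_re, key g g1] at k1
    refine le_trans (le_of_pow_le_pow_left₀ two_ne_zero (by positivity) ?_)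
      (mul_le_mul_of_nonneg_left (pn g g1 ξ) hc)
    rw [mul_pow, ContinuousLinearMap.mul_apply]
    linarith
  · have c1 : Commute x (1 - g) := (Commute.one_right x).sub_right xg
    have k2 : ∀ ζ, c * ‖(1 - g) ζ‖ ≤ ‖(1 - g) (x ζ)‖ := fun ζ => by
      have k1 := re_inner_nonneg g4 ζ
      rw [key _ g1.one_sub] at k1
      rw [← ContinuousLinearMap.mul_apply, ← c1.eq, ContinuousLinearMap.mul_apply]
      exact le_of_pow_le_pow_left₀ two_ne_zero (norm_nonneg _) (by rw [mul_pow]; linarith)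
    refine le_trans ?_ (pn _ g1.one_sub _)
    induction n with
    | zero => simp
    | succ n ih =>
      rw [pow_succ' x, ContinuousLinearMap.mul_apply, pow_succ', mul_assoc]
      exact (mul_le_mul_of_nonneg_left ih hc).trans (k2 _)

end Vale.Agent.P078.G
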